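import Vale.Agent.Lib.P344.Adds3

/-!
P344: an improved lower bound for linear circuits with unrestricted coefficients that compute the
discrete Fourier transform.
-/

namespace Vale.Agent.Results.P344.FourN

open Vale.Agent.P344

/-- For every `n ≥ 2`, every linear circuit with unrestricted complex coefficients that computes
the discrete Fourier transform of order `n` has at least `3n - 3 - n / p` additions and
subtractions, `p` the least prime factor of `n`, and at least `n - d(n)` scalar multiplications,
`d(n)` the number of divisors of `n`; so it has at least `4n - 3 - n / p - d(n)` gates. -/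
theorem result (n : ℕ) (hn : 2 ≤ n) (c : List Gate) (out : Fin n → ℕ)
    (h : ComputesDFT n c out) :
    3 * n ≤ numAdd c + n / n.minFac + 3 ∧ n ≤ numMul c + n.divisors.card ∧
      4 * n ≤ c.length + n / n.minFac + n.divisors.card + 3 := by
  have h1 := adds_bound3 hn h
  have h2 := muls_bound hn h
  have h3 := numAdd_add_numMul c
  refine ⟨h1, h2, ?_⟩
  generalize n / n.minFac = x at h1 ⊢
  omega

end Vale.Agent.Results.P344.FourN
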