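import Vale.Agent.Lib.P344.Muls

/-!
P344: a lower bound for linear circuits with unrestricted coefficients that compute the discrete
Fourier transform.
-/

namespace Vale.Agent.Results.P344.LinearBound

open Vale.Agent.P344

/-- For every `n ≥ 2`, every linear circuit with unrestricted complex coefficients that computes
the discrete Fourier transform of order `n` has at least `2n - 2` additions and subtractions and
at least `n - d(n)` scalar multiplications, `d(n)` the number of divisors of `n`; so it has at
least `3n - 2 - d(n)` gates. -/
theorem result (n : ℕ) (hn : 2 ≤ n) (c : List Gate) (out : Fin n → ℕ)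
    (h : ComputesDFT n c out) :
    2 * n ≤ numAdd c + 2 ∧ n ≤ numMul c + n.divisors.card ∧
      3 * n ≤ c.length + 2 + n.divisors.card := by
  have h1 := adds_bound hn h
  have h2 := muls_bound hn h
  have h3 := numAdd_add_numMul c
  exact ⟨h1, h2, by omega⟩

end Vale.Agent.Results.P344.LinearBound
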